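import Mathlib

/-!
# Isotropic elasticity in three dimensions

`P136` vocabulary. A coefficient smooth up to the boundary is the restriction of a smooth function
on the space. `SameDN` is implied by equality of the two displacement-to-traction maps: take for
the form the common map on traces (complexified, symmetric) and zero elsewhere.
-/

noncomputable section

namespace Vale.Agent.P136

open MeasureTheory

/-- Space. -/
abbrev R3 : Type := EuclideanSpace ℝ (Fin 3)

/-- Complex vectors. -/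
abbrev C3 : Type := Fin 3 → ℂ

/-- The partial derivative. -/
def pd {E : Type*} [NormedAddCommGroup E] [NormedSpace ℝ E] (i : Fin 3) (f : R3 → E) : R3 → E :=
  fun x => fderiv ℝ f x (EuclideanSpace.single i 1)

/-- The divergence. -/
def dvg (u : R3 → C3) : R3 → ℂ := fun x => ∑ i, pd i (fun y => u y i) x

/-- The strain. -/
def strain (u : R3 → C3) (i j : Fin 3) : R3 → ℂ :=
  fun x => (pd j (fun y => u y i) x + pd i (fun y => u y j) x) / 2

/-- The bilinear energy density. -/
def energy (lam mu : R3 → ℝ) (u v : R3 → C3) : R3 → ℂ :=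
  fun x => (lam x : ℂ) * (dvg u x * dvg v x)
    + 2 * (mu x : ℂ) * ∑ i, ∑ j, strain u i j x * strain v i j x

/-- The Lamé operator `div (lam (div u) I + 2 mu e(u))`. -/
def lame (lam mu : R3 → ℝ) (u : R3 → C3) : R3 → C3 :=
  fun x l => pd l (fun y => (lam y : ℂ) * dvg u y) x
    + ∑ j, pd j (fun y => 2 * (mu y : ℂ) * strain u l j y) x

/-- A bounded connected domain with smooth boundary. -/
structure SmoothDomain (Ω : Set R3) : Prop where
  isOpen : IsOpen Ω
  bounded : Bornology.IsBounded Ω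
  connected : IsConnected Ω
  boundary : ∀ p ∈ frontier Ω, ∃ (U : Set R3) (ρ : R3 → ℝ), IsOpen U ∧ p ∈ U ∧
    ContDiff ℝ (⊤ : ℕ∞) ρ ∧ fderiv ℝ ρ p ≠ 0 ∧ Ω ∩ U = {x | ρ x < 0} ∩ U

/-- Admissible moduli. -/
structure Admissible (Ω : Set R3) (lam mu : R3 → ℝ) : Prop where
  smooth_lam : ContDiff ℝ (⊤ : ℕ∞) lam
  smooth_mu : ContDiff ℝ (⊤ : ℕ∞) mu
  mu_pos : ∀ x ∈ closure Ω, 0 < mu x
  bulk_pos : ∀ x ∈ closure Ω, 0 < 3 * lam x + 2 * mu x

/-- The restriction to the boundary. -/
def trace (Ω : Set R3) (u : R3 → C3) : frontier Ω → C3 := fun x => u x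

/-- `Λ` is the displacement-to-traction pairing of `(lam, mu)` on the solutions that are `C²` up to
the boundary. -/
def IsDN (Ω : Set R3) (lam mu : R3 → ℝ) (Λ : (frontier Ω → C3) → (frontier Ω → C3) → ℂ) : Prop :=
  ∀ (U : Set R3) (u v : R3 → C3), IsOpen U → closure Ω ⊆ U → ContDiffOn ℝ 2 u U →
    ContDiffOn ℝ 2 v U → (∀ x ∈ Ω, lame lam mu u x = 0) →
    Λ (trace Ω u) (trace Ω v) = ∫ x in Ω, energy lam mu u v x

/-- The two pairs have one symmetric displacement-to-traction pairing. -/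
def SameDN (Ω : Set R3) (lam₁ mu₁ lam₂ mu₂ : R3 → ℝ) : Prop :=
  ∃ Λ : (frontier Ω → C3) → (frontier Ω → C3) → ℂ, (∀ f g, Λ f g = Λ g f) ∧
    IsDN Ω lam₁ mu₁ Λ ∧ IsDN Ω lam₂ mu₂ Λ

end Vale.Agent.P136
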