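import Vale.Agent.P136.Mod.Boot
import Vale.Agent.P136.Mod.Carleman
import Vale.Agent.P136.Mod.Cgo
import Vale.Agent.P136.Mod.Extend
import Vale.Agent.P136.Mod.Gauge
import Vale.Agent.P136.Mod.Hol
import Vale.Agent.P136.Mod.Ikehata
import Vale.Agent.P136.Mod.PlaneBound
import Vale.Agent.P136.Mod.PlaneExist
import Vale.Agent.P136.Mod.PlaneValue
import Vale.Agent.P136.Mod.Rigid
import Vale.Agent.P136.Mod.Jet
import Vale.Agent.P136.Mod.Orth
import Vale.Agent.P136.Mod.DNMap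

/-!
# Assembly of the uniqueness theorem
-/

noncomputable section

namespace Vale.Agent.P136

open MeasureTheory Metric

/-- Solvability of the conjugated system. -/
theorem solveOut : SolveOut := solve weakSolve boot

/-- Special solutions. -/
theorem cgoOut (hE : PlaneExistOut) : CgoOut := cgo ike solveOut hE

/-- The gauge is polynomial and rigid, so orthogonal systems have equal coefficients. -/
theorem eq_of_orth (hE : PlaneExistOut) (hX : PlaneExtOut) {C₁ C₂ : Coef} {R : ℝ} (hR : 0 < R)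
    (hEq : EqOut C₁ C₂ R) (hO : Orth C₁ C₂ R) : ∀ x, C₁.lam x = C₂.lam x ∧ C₁.mu x = C₂.mu x := by
  obtain ⟨X, hX'⟩ := gauge (planeValue hE) hX planeBound C₁ C₂ R hR hEq hO
  obtain ⟨a, K, P, hP⟩ := hol (planeValue hE) hX planeBound C₁ C₂ R hR hEq X hX'
  exact rigid C₁ C₂ R hR hEq a K P hP

/-- The boundary jets agree. -/
theorem jetOut : JetOut := Jet.jet (green ike solveOut) coefExt

/-- Assembly: equal pairings give equal moduli. -/
theorem uniqueness_of (hE : PlaneExistOut) (hX : PlaneExtOut)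
    {Ω : Set R3} {lam₁ mu₁ lam₂ mu₂ : R3 → ℝ} (hΩ : SmoothDomain Ω)
    (h₁ : Admissible Ω lam₁ mu₁) (h₂ : Admissible Ω lam₂ mu₂)
    (hDN : SameDN Ω lam₁ mu₁ lam₂ mu₂) :
    ∀ x ∈ closure Ω, lam₁ x = lam₂ x ∧ mu₁ x = mu₂ x := by
  obtain ⟨C₁, C₂, R, hR, -, hEq, hId, hC⟩ := extend Ω lam₁ mu₁ lam₂ mu₂ hΩ h₁ h₂ hDN
    (jetOut Ω lam₁ mu₁ lam₂ mu₂ hΩ h₁ h₂ hDN)
  have hO := orth (cgoOut hE) hE hX C₁ C₂ R hR hEq hId
  intro x hx
  obtain ⟨hl, hm⟩ := eq_of_orth hE hX hR hEq hO x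
  obtain ⟨a, b, c, d⟩ := hC x hx
  exact ⟨by rw [← a, ← c, hl], by rw [← b, ← d, hm]⟩

/-- The same for the literal maps. -/
theorem uniqueness_sameMap (hE : PlaneExistOut) (hX : PlaneExtOut)
    {Ω : Set R3} {lam₁ mu₁ lam₂ mu₂ : R3 → ℝ} (hΩ : SmoothDomain Ω)
    (h₁ : Admissible Ω lam₁ mu₁) (h₂ : Admissible Ω lam₂ mu₂)
    (hS : DN.SameMap Ω lam₁ mu₁ lam₂ mu₂) :
    ∀ x ∈ closure Ω, lam₁ x = lam₂ x ∧ mu₁ x = mu₂ x :=
  uniqueness_of hE hX hΩ h₁ h₂ (DN.sameDN_of_sameMap hΩ h₁ h₂ hS)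

/-- Uniqueness for the inverse problem of isotropic elasticity. -/
theorem uniqueness {Ω : Set R3} {lam₁ mu₁ lam₂ mu₂ : R3 → ℝ} (hΩ : SmoothDomain Ω)
    (h₁ : Admissible Ω lam₁ mu₁) (h₂ : Admissible Ω lam₂ mu₂)
    (hS : DN.SameMap Ω lam₁ mu₁ lam₂ mu₂) :
    ∀ x ∈ closure Ω, lam₁ x = lam₂ x ∧ mu₁ x = mu₂ x :=
  uniqueness_sameMap (planeExist planeBound) (planeExt planeBound) hΩ h₁ h₂ hS

end Vale.Agent.P136
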