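import Vale.Agent.P136.Defs

/-!
# Interfaces of the uniqueness proof

Each `...Out` is to be proved by one module; none is assumed by the final theorem.
See `Vale/Agent/P136/PROOF.md`.
-/

noncomputable section

namespace Vale.Agent.P136

open MeasureTheory Metric
open scoped BigOperators Matrix ContDiff

/-! ## Coefficients after extension -/

/-- Coefficients on the whole space, constant outside the ball of radius `rad`. -/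
structure Coef where
  lam : R3 → ℝ
  mu : R3 → ℝ
  lam0 : ℝ
  rad : ℝ
  rad_pos : 0 < rad
  smooth_lam : ContDiff ℝ ∞ lam
  smooth_mu : ContDiff ℝ ∞ mu
  mu_pos : ∀ x, 0 < mu x
  bulk_pos : ∀ x, 0 < 3 * lam x + 2 * mu x
  lam_out : ∀ x, rad ≤ ‖x‖ → lam x = lam0
  mu_out : ∀ x, rad ≤ ‖x‖ → mu x = 1

namespace Coef

/-- `1 / mu`. -/
def nu (C : Coef) (x : R3) : ℝ := (C.mu x)⁻¹

/-- The coupling `sqrt mu (lam + mu) / (lam + 2 mu)`. -/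
def kap (C : Coef) (x : R3) : ℝ :=
  Real.sqrt (C.mu x) * (C.lam x + C.mu x) / (C.lam x + 2 * C.mu x)

/-- `(lam + 2 mu) / mu`. -/
def beta (C : Coef) (x : R3) : ℝ := (C.lam x + 2 * C.mu x) / C.mu x

/-- The gradient of `log mu`. -/
def glm (C : Coef) (i : Fin 3) (x : R3) : ℝ := pd i C.mu x / C.mu x

/-- The Hessian of `1 / mu`. -/
def hnu (C : Coef) (i j : Fin 3) (x : R3) : ℝ := pd i (pd j C.nu) x

end Coef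

/-- Equal coefficients outside the ball of radius `R`. -/
structure EqOut (C₁ C₂ : Coef) (R : ℝ) : Prop where
  rad₁ : C₁.rad ≤ R
  rad₂ : C₂.rad ≤ R
  lam : ∀ x, R ≤ ‖x‖ → C₁.lam x = C₂.lam x
  mu : ∀ x, R ≤ ‖x‖ → C₁.mu x = C₂.mu x

/-- The integral identity on every larger ball. -/
def IntId (C₁ C₂ : Coef) (R : ℝ) : Prop :=
  ∀ (R' : ℝ) (u₁ u₂ : R3 → C3), R < R' → ContDiffOn ℝ 2 u₁ (ball 0 R') →
    ContDiffOn ℝ 2 u₂ (ball 0 R') → (∀ x ∈ ball 0 R', lame C₁.lam C₁.mu u₁ x = 0) →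
    (∀ x ∈ ball 0 R', lame C₂.lam C₂.mu u₂ x = 0) →
    ∫ x in ball 0 R, (energy C₁.lam C₁.mu u₁ u₂ x - energy C₂.lam C₂.mu u₁ u₂ x) = 0

/-- (B) equal maps give equal jets at the boundary. -/
def JetOut : Prop :=
  ∀ (Ω : Set R3) (lam₁ mu₁ lam₂ mu₂ : R3 → ℝ), SmoothDomain Ω → Admissible Ω lam₁ mu₁ →
    Admissible Ω lam₂ mu₂ → SameDN Ω lam₁ mu₁ lam₂ mu₂ → ∀ (n : ℕ), ∀ x ∈ frontier Ω,
      iteratedFDeriv ℝ n lam₁ x = iteratedFDeriv ℝ n lam₂ x ∧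
      iteratedFDeriv ℝ n mu₁ x = iteratedFDeriv ℝ n mu₂ x

/-- (B') equal jets give a common extension carrying the identity. -/
def ExtendOut : Prop :=
  ∀ (Ω : Set R3) (lam₁ mu₁ lam₂ mu₂ : R3 → ℝ), SmoothDomain Ω → Admissible Ω lam₁ mu₁ →
    Admissible Ω lam₂ mu₂ → SameDN Ω lam₁ mu₁ lam₂ mu₂ →
    (∀ (n : ℕ), ∀ x ∈ frontier Ω, iteratedFDeriv ℝ n lam₁ x = iteratedFDeriv ℝ n lam₂ x ∧
      iteratedFDeriv ℝ n mu₁ x = iteratedFDeriv ℝ n mu₂ x) →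
    ∃ (C₁ C₂ : Coef) (R : ℝ), 0 < R ∧ closure Ω ⊆ ball 0 R ∧ EqOut C₁ C₂ R ∧ IntId C₁ C₂ R ∧
      ∀ x ∈ closure Ω, C₁.lam x = lam₁ x ∧ C₁.mu x = mu₁ x ∧ C₂.lam x = lam₂ x ∧ C₂.mu x = mu₂ x

/-- (B0) admissible moduli extend to coefficients on the whole space. -/
def CoefExtOut : Prop :=
  ∀ (Ω : Set R3) (lam mu : R3 → ℝ), SmoothDomain Ω → Admissible Ω lam mu →
    ∃ (C : Coef) (U : Set R3), IsOpen U ∧ closure Ω ⊆ U ∧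
      ∀ x ∈ U, C.lam x = lam x ∧ C.mu x = mu x

/-- (B'') forcing terms can be solved with a bound by finitely many derivatives. -/
def GreenOut : Prop :=
  ∀ (C : Coef) (R : ℝ), 0 < R → ∃ (K : ℝ) (m : ℕ), ∀ f : R3 → C3, ContDiff ℝ ∞ f →
    ∀ S : ℝ, (∀ x ∈ closedBall (0 : R3) (R + 2), ∀ i ≤ m, ‖iteratedFDeriv ℝ i f x‖ ≤ S) →
    ∃ u : R3 → C3, ContDiff ℝ ∞ u ∧ (∀ x ∈ ball 0 R, lame C.lam C.mu u x = f x) ∧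
      ∀ x ∈ ball (0 : R3) R, ∀ i ≤ 2, ‖iteratedFDeriv ℝ i u x‖ ≤ K * S

/-! ## Directions -/

/-- The null vector of a spinor. -/
def null (σ : Fin 2 → ℂ) : C3 :=
  ![σ 0 ^ 2 - σ 1 ^ 2, Complex.I * (σ 0 ^ 2 + σ 1 ^ 2), -2 * σ 0 * σ 1]

/-- The derivative along a complex vector. -/
def dD {E : Type*} [NormedAddCommGroup E] [NormedSpace ℂ E] (θ : C3) (f : R3 → E) : R3 → E :=
  fun x => ∑ i, θ i • pd i f x

/-- The exponential with complex frequency `τ θ`. -/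
def cexpθ (τ : ℝ) (θ : C3) (x : R3) : ℂ := Complex.exp ((τ : ℂ) * ∑ i, θ i * (x i : ℂ))

/-! ## Second order systems with scalar principal part -/

/-- `Δ v + ∑ A i ∂ i v + B v`. -/
def sysOp {ι : Type} [Fintype ι] (A : Fin 3 → R3 → Matrix ι ι ℂ) (B : R3 → Matrix ι ι ℂ)
    (v : R3 → ι → ℂ) : R3 → ι → ℂ :=
  fun x => ∑ i, pd i (pd i v) x + ∑ i, A i x *ᵥ pd i v x + B x *ᵥ v x

/-- The operator conjugated by `exp (τ θ x)`, for null `θ`. -/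
def sysConj {ι : Type} [Fintype ι] (A : Fin 3 → R3 → Matrix ι ι ℂ) (B : R3 → Matrix ι ι ℂ)
    (τ : ℝ) (θ : C3) (v : R3 → ι → ℂ) : R3 → ι → ℂ :=
  fun x => sysOp A B v x + (τ : ℂ) • ((2 : ℂ) • dD θ v x + ∑ i, θ i • (A i x *ᵥ v x))

/-- (C1) the conjugated system is solvable for large `τ`, with polynomial loss. -/
def SolveOut : Prop :=
  ∀ (ι : Type) [Fintype ι] (A : Fin 3 → R3 → Matrix ι ι ℂ) (B : R3 → Matrix ι ι ℂ),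
    (∀ i a b, ContDiff ℝ ∞ fun x => A i x a b) → (∀ a b, ContDiff ℝ ∞ fun x => B x a b) →
    ∀ θ : C3, θ ≠ 0 → ∑ i, θ i ^ 2 = 0 → ∀ (R : ℝ) (j : ℕ), 0 < R →
    ∃ (K τ₀ : ℝ) (m p : ℕ), 0 < τ₀ ∧ ∀ τ : ℝ, τ₀ ≤ τ → ∀ f : R3 → ι → ℂ, ContDiff ℝ ∞ f →
      ∀ S : ℝ, (∀ x ∈ closedBall (0 : R3) (R + 1), ∀ i ≤ m, ‖iteratedFDeriv ℝ i f x‖ ≤ S) →
      ∃ r : R3 → ι → ℂ, ContDiff ℝ ∞ r ∧ (∀ x ∈ ball 0 R, sysConj A B τ θ r x = f x) ∧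
        ∀ x ∈ ball (0 : R3) R, ∀ i ≤ j, ‖iteratedFDeriv ℝ i r x‖ ≤ K * τ ^ p * S

/-- The formal transpose of the conjugated operator. -/
def sysConjT {ι : Type} [Fintype ι] (A : Fin 3 → R3 → Matrix ι ι ℂ) (B : R3 → Matrix ι ι ℂ)
    (τ : ℝ) (θ : C3) (φ : R3 → ι → ℂ) : R3 → ι → ℂ :=
  fun x => ∑ i, pd i (pd i φ) x - ∑ i, pd i (fun y => (A i y)ᵀ *ᵥ φ y) x + (B x)ᵀ *ᵥ φ x
    + (τ : ℂ) • (∑ i, θ i • ((A i x)ᵀ *ᵥ φ x) - (2 : ℂ) • dD θ φ x)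

/-- `r` solves the conjugated system weakly on the ball of radius `R`. -/
def WeakSol {ι : Type} [Fintype ι] (A : Fin 3 → R3 → Matrix ι ι ℂ) (B : R3 → Matrix ι ι ℂ)
    (τ : ℝ) (θ : C3) (R : ℝ) (r f : R3 → ι → ℂ) : Prop :=
  ∀ φ : R3 → ι → ℂ, ContDiff ℝ ∞ φ → tsupport φ ⊆ ball 0 R →
    ∫ x, r x ⬝ᵥ sysConjT A B τ θ φ x = ∫ x, f x ⬝ᵥ φ x

/-- (C1a) Carleman estimate and duality. -/
def WeakSolveOut : Prop :=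
  ∀ (ι : Type) [Fintype ι] (A : Fin 3 → R3 → Matrix ι ι ℂ) (B : R3 → Matrix ι ι ℂ),
    (∀ i a b, ContDiff ℝ ∞ fun x => A i x a b) → (∀ a b, ContDiff ℝ ∞ fun x => B x a b) →
    ∀ θ : C3, θ ≠ 0 → ∑ i, θ i ^ 2 = 0 → ∀ R : ℝ, 0 < R →
    ∃ (K τ₀ : ℝ) (p : ℕ), 0 < τ₀ ∧ ∀ τ : ℝ, τ₀ ≤ τ → ∀ f : R3 → ι → ℂ, ContDiff ℝ ∞ f →
      ∀ S : ℝ, (∀ x ∈ closedBall (0 : R3) R, ‖f x‖ ≤ S) →
      ∃ r : R3 → ι → ℂ, MemLp r 2 volume ∧ WeakSol A B τ θ R r f ∧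
        eLpNorm r 2 volume ≤ ENNReal.ofReal (K * τ ^ p * S)

/-- (C1b) interior regularity with polynomial loss. -/
def BootOut : Prop :=
  ∀ (ι : Type) [Fintype ι] (A : Fin 3 → R3 → Matrix ι ι ℂ) (B : R3 → Matrix ι ι ℂ),
    (∀ i a b, ContDiff ℝ ∞ fun x => A i x a b) → (∀ a b, ContDiff ℝ ∞ fun x => B x a b) →
    ∀ (θ : C3) (R R' : ℝ) (j : ℕ), 0 < R → R < R' →
    ∃ (K : ℝ) (m p : ℕ), ∀ τ : ℝ, 1 ≤ τ → ∀ f r : R3 → ι → ℂ, ContDiff ℝ ∞ f →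
      MemLp r 2 volume → WeakSol A B τ θ R' r f →
      ∀ S : ℝ, eLpNorm r 2 volume ≤ ENNReal.ofReal S →
        (∀ x ∈ closedBall (0 : R3) R', ∀ i ≤ m, ‖iteratedFDeriv ℝ i f x‖ ≤ S) → 0 ≤ S →
        ∃ r' : R3 → ι → ℂ, ContDiff ℝ ∞ r' ∧ (∀ x ∈ ball 0 R, sysConj A B τ θ r' x = f x) ∧
          ∀ x ∈ ball (0 : R3) R, ∀ i ≤ j, ‖iteratedFDeriv ℝ i r' x‖ ≤ K * τ ^ p * S

/-! ## The reduced system and its special solutions -/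

/-- The first order coefficients: indices `0 1 2` are `w`, index `3` is `g`. -/
def ikA (C : Coef) (i : Fin 3) (x : R3) : Matrix (Fin 4) (Fin 4) ℂ :=
  Matrix.of fun a b =>
    if ha : (a : ℕ) < 3 then
      (if b = 3 then -2 * (Real.sqrt (C.mu x) : ℂ) * (C.hnu ⟨a, ha⟩ i x : ℂ)
        else if (b : ℕ) = (i : ℕ) then -(C.glm ⟨a, ha⟩ x : ℂ) else 0)
    else (if (b : ℕ) = (i : ℕ) then (C.kap x : ℂ) else 0)

/-- The displacement of the potentials, `mu^(-1/2) w + nu ∇g - g ∇nu`. -/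
def toU (C : Coef) (Y : R3 → Fin 4 → ℂ) : R3 → C3 :=
  fun x l => ((Real.sqrt (C.mu x))⁻¹ : ℂ) * Y x l.castSucc
    + (C.nu x : ℂ) * pd l (fun y => Y y 3) x - Y x 3 * ((pd l C.nu x : ℝ) : ℂ)

/-- (C2) the exact reduction, some zero order coefficients. -/
def IkeOut : Prop :=
  ∀ C : Coef, ∃ B : R3 → Matrix (Fin 4) (Fin 4) ℂ, (∀ a b, ContDiff ℝ ∞ fun x => B x a b) ∧
    (∀ x, C.rad < ‖x‖ → B x = 0) ∧
    ∀ (U : Set R3) (Y : R3 → Fin 4 → ℂ), IsOpen U → ContDiffOn ℝ ∞ Y U → ∀ x ∈ U, ∀ l : Fin 3,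
      lame C.lam C.mu (toU C Y) x l
        = (Real.sqrt (C.mu x) : ℂ) * sysOp (ikA C) B Y x l.castSucc
          + pd l (fun y => (C.beta y : ℂ) * sysOp (ikA C) B Y y 3) x

/-- The transport operator of the phase `θ`. -/
def transp (C : Coef) (θ : C3) (Y : R3 → Fin 4 → ℂ) : R3 → Fin 4 → ℂ :=
  fun x => (2 : ℂ) • dD θ Y x + ∑ i, θ i • (ikA C i x *ᵥ Y x)

/-- (C3) special solutions with a given leading amplitude. -/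
def CgoOut : Prop :=
  ∀ (C : Coef) (θ : C3), θ ≠ 0 → ∑ i, θ i ^ 2 = 0 → ∀ (R : ℝ), 0 < R →
    ∀ Y₀ : R3 → Fin 4 → ℂ, ContDiff ℝ ∞ Y₀ → (∀ x ∈ ball 0 (R + 1), transp C θ Y₀ x = 0) →
    ∃ (Y₁ : R3 → Fin 4 → ℂ) (r : ℝ → R3 → Fin 4 → ℂ) (K τ₀ : ℝ), ContDiff ℝ ∞ Y₁ ∧ 0 < τ₀ ∧
      ∀ τ : ℝ, τ₀ ≤ τ → ContDiff ℝ ∞ (r τ) ∧
        (∀ x ∈ ball (0 : R3) R, ∀ i ≤ 3, ‖iteratedFDeriv ℝ i (r τ) x‖ ≤ K / τ ^ 2) ∧
        ∀ x ∈ ball 0 R, lame C.lam C.mu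
          (toU C fun y => cexpθ τ θ y • (Y₀ y + (τ : ℂ)⁻¹ • Y₁ y + r τ y)) x = 0

/-! ## Systems on the planes of a null vector -/

/-- (D1) solutions with a forcing term exist on every ball. -/
def PlaneExistOut : Prop :=
  ∀ (ι : Type) [Fintype ι] (M : R3 → Matrix ι ι ℂ), (∀ a b, ContDiff ℝ ∞ fun x => M x a b) →
    ∀ θ : C3, θ ≠ 0 → ∑ i, θ i ^ 2 = 0 → ∀ (R : ℝ) (f : R3 → ι → ℂ), ContDiff ℝ ∞ f →
    ∃ v : R3 → ι → ℂ, ContDiff ℝ ∞ v ∧ ∀ x ∈ ball 0 R, dD θ v x = M x *ᵥ v x + f x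

/-- (D2) solutions with a prescribed value exist on every ball. -/
def PlaneValueOut : Prop :=
  ∀ (ι : Type) [Fintype ι] (M : R3 → Matrix ι ι ℂ), (∀ a b, ContDiff ℝ ∞ fun x => M x a b) →
    ∀ θ : C3, θ ≠ 0 → ∑ i, θ i ^ 2 = 0 → ∀ (R : ℝ) (x₀ : R3) (c : ι → ℂ),
    ∃ v : R3 → ι → ℂ, ContDiff ℝ ∞ v ∧ v x₀ = c ∧ ∀ x ∈ ball 0 R, dD θ v x = M x *ᵥ v x

/-- (D3) a forcing term orthogonal to the adjoint solutions has a compact solution. -/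
def PlaneExtOut : Prop :=
  ∀ (ι : Type) [Fintype ι] (M : R3 → Matrix ι ι ℂ), (∀ a b, ContDiff ℝ ∞ fun x => M x a b) →
    ∀ θ : C3, θ ≠ 0 → ∑ i, θ i ^ 2 = 0 → ∀ (R : ℝ) (f : R3 → ι → ℂ), 0 < R → ContDiff ℝ ∞ f →
    (∀ x, R < ‖x‖ → f x = 0) →
    (∀ z : R3 → ι → ℂ, ContDiff ℝ ∞ z →
      (∀ x ∈ ball 0 (R + 3), dD θ z x = -((M x)ᵀ *ᵥ z x)) → ∫ x, z x ⬝ᵥ f x = 0) →
    ∃ v : R3 → ι → ℂ, ContDiff ℝ ∞ v ∧ (∀ x, R + 3 < ‖x‖ → v x = 0) ∧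
      ∀ x, dD θ v x = M x *ᵥ v x + f x

/-- (D4) the bound for compactly supported functions, uniform in a parameter. -/
def PlaneBoundOut : Prop :=
  ∀ (ι : Type) [Fintype ι] (P : Type) [TopologicalSpace P] (S : Set P), IsCompact S →
    ∀ (θ : P → C3) (M : P → R3 → Matrix ι ι ℂ), ContinuousOn θ S →
    (∀ s ∈ S, θ s ≠ 0 ∧ ∑ i, θ s i ^ 2 = 0) →
    (∀ a b, ContinuousOn (fun q : P × R3 => M q.1 q.2 a b) (S ×ˢ Set.univ)) →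
    ∀ R : ℝ, ∃ K : ℝ, ∀ s ∈ S, ∀ v : R3 → ι → ℂ, ContDiff ℝ 1 v →
      (∀ x, R < ‖x‖ → v x = 0) →
      ∫ x, ‖v x‖ ^ 2 ≤ K * ∫ x, ‖dD (θ s) v x - M s x *ᵥ v x‖ ^ 2

/-! ## The closed transport system and the gauge -/

/-- The Pauli matrix of a vector, applied to a spinor. -/
def pauli (v : C3) (σ : Fin 2 → ℂ) : Fin 2 → ℂ :=
  ![v 2 * σ 0 + (v 0 - Complex.I * v 1) * σ 1, (v 0 + Complex.I * v 1) * σ 0 - v 2 * σ 1]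

/-- The closed system on `(b, φ)`. -/
def stApply (C : Coef) (σ : Fin 2 → ℂ) (x : R3) (y : Fin 3 → ℂ) : Fin 3 → ℂ :=
  let s := σ 0 * y 2 - σ 1 * y 1
  let φ := pauli (fun i => (Real.sqrt (C.mu x) : ℂ) * (∑ j, (C.hnu i j x : ℂ) * null σ j) * y 0
    + (C.glm i x : ℂ) * s / 2) σ
  ![-((C.kap x : ℂ) * s) / 2, φ 0, φ 1]

/-- Its matrix. -/
def stM (C : Coef) (σ : Fin 2 → ℂ) (x : R3) : Matrix (Fin 3) (Fin 3) ℂ :=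
  Matrix.of fun i j => stApply C σ x (Pi.single j 1) i

/-- The two systems are orthogonal. -/
def Orth (C₁ C₂ : Coef) (R : ℝ) : Prop :=
  ∀ σ : Fin 2 → ℂ, σ ≠ 0 → ∀ y z : R3 → Fin 3 → ℂ, ContDiff ℝ ∞ y → ContDiff ℝ ∞ z →
    (∀ x ∈ ball 0 (R + 7), dD (null σ) y x = stM C₁ σ x *ᵥ y x) →
    (∀ x ∈ ball 0 (R + 7), dD (null σ) z x = -((stM C₂ σ x)ᵀ *ᵥ z x)) →
    ∫ x, z x ⬝ᵥ ((stM C₂ σ x - stM C₁ σ x) *ᵥ y x) = 0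

/-- (E) the identity gives orthogonality. -/
def OrthOut : Prop :=
  ∀ (C₁ C₂ : Coef) (R : ℝ), 0 < R → EqOut C₁ C₂ R → IntId C₁ C₂ R → Orth C₁ C₂ R

/-- The gauge. -/
structure IsGauge (C₁ C₂ : Coef) (R : ℝ) (X : (Fin 2 → ℂ) → R3 → Matrix (Fin 3) (Fin 3) ℂ) :
    Prop where
  smooth : ∀ σ, σ ≠ 0 → ∀ a b, ContDiff ℝ ∞ fun x => X σ x a b
  out : ∀ σ, σ ≠ 0 → ∀ x, R + 7 < ‖x‖ → X σ x = 1
  eqn : ∀ σ, σ ≠ 0 → ∀ x, ∀ a b, dD (null σ) (fun y => X σ y a b) x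
    = (stM C₂ σ x * X σ x - X σ x * stM C₁ σ x) a b

/-- (E') orthogonality gives a gauge. -/
def GaugeOut : Prop :=
  ∀ (C₁ C₂ : Coef) (R : ℝ), 0 < R → EqOut C₁ C₂ R → Orth C₁ C₂ R → ∃ X, IsGauge C₁ C₂ R X

/-- The form of a polynomial gauge: `[[a, 0], [K σ, P]]`. -/
def PolyGauge (C₁ C₂ : Coef) (R : ℝ) (a : R3 → ℂ) (K P : R3 → Matrix (Fin 2) (Fin 2) ℂ) : Prop :=
  IsGauge C₁ C₂ R fun σ x => Matrix.of fun i j =>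
    Fin.cases (Fin.cases (a x) (fun _ => 0) j)
      (fun i' => Fin.cases ((K x *ᵥ σ) i') (fun j' => P x i' j') j) i

/-- (F1) the gauge is polynomial. -/
def HolOut : Prop :=
  ∀ (C₁ C₂ : Coef) (R : ℝ), 0 < R → EqOut C₁ C₂ R →
    ∀ X, IsGauge C₁ C₂ R X → ∃ a K P, PolyGauge C₁ C₂ R a K P

/-- (F2) a polynomial gauge forces equal coefficients. -/
def RigidOut : Prop :=
  ∀ (C₁ C₂ : Coef) (R : ℝ), 0 < R → EqOut C₁ C₂ R →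
    ∀ a K P, PolyGauge C₁ C₂ R a K P → ∀ x, C₁.lam x = C₂.lam x ∧ C₁.mu x = C₂.mu x

end Vale.Agent.P136
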